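import Vale.Agent.P146.Div.Defs
import Vale.Agent.P166.NW.Quad.Levels
import Vale.Agent.P166.NW.Quad.Bregman
import Vale.Agent.P166.NW.Quad.Refine
import Vale.Agent.P166.NW.SiteMono

/-!
The Parisi functional of the negative Wishart model to second order in the coupling.
-/

noncomputable section

open Finset
open scoped BigOperators

namespace Vale.Agent.P146.Div.Lower

open Vale.Agent.P157.Parisi (Path parisi patValue slope siteValue weight)
open Vale.Agent.P166.NW (quadPot gap denom quadConst quadValue quadSlope gap_nonneg telescope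
  sum_weight_mul)

/-- The remainder of the second order expansion of the logarithm. -/
def logRem (x : ℝ) : ℝ := Real.log (1 + x) - x + x ^ 2 / 2

lemma logRem_sub {x y : ℝ} (hy : 0 ≤ y) (hxy : y ≤ x) :
    logRem x - logRem y ≤ (x - y) * (x + y) ^ 2 / 2 := by
  set t := (x - y) / (1 + y) with ht
  have hy1 : 0 < 1 + y := by linarith
  have hx1 : 0 < 1 + x := by linarith
  have ht0 : 0 ≤ t := div_nonneg (by linarith) hy1.le
  have e1 : 1 + t = (1 + x) / (1 + y) := by rw [ht]; field_simp; ring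
  have el : Real.log (1 + x) - Real.log (1 + y) = Real.log (1 + t) := by
    rw [e1, Real.log_div hx1.ne' hy1.ne']
  have h := Real.self_le_sinh_iff.2 (Real.log_nonneg (le_add_of_nonneg_right ht0))
  rw [Real.sinh_log (by linarith : 0 < 1 + t)] at h
  have e2 : (1 + t - (1 + t)⁻¹) / 2 =
      (x - y) * (2 + (x + y)) / (2 * ((1 + x) * (1 + y))) := by
    rw [e1]; field_simp; ring
  rw [e2, ← el] at h
  have h2 : (x - y) * (2 + (x + y)) / (2 * ((1 + x) * (1 + y))) ≤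
      (x - y) * (1 - (x + y) / 2) + (x - y) * (x + y) ^ 2 / 2 := by
    rw [div_le_iff₀ (by positivity)]
    nlinarith [mul_nonneg (mul_nonneg (sub_nonneg.2 hxy) (mul_nonneg hy (hy.trans hxy)))
      (show (0 : ℝ) ≤ (x + y) ^ 2 - (x + y) + 2 by nlinarith [sq_nonneg (x + y - 1 / 2)]),
      mul_nonneg (sub_nonneg.2 hxy) (pow_nonneg (add_nonneg (hy.trans hxy) hy) 3)]
  simp only [logRem]
  linarith [h.trans h2]

lemma telescope_lt {r : ℕ} (F : Fin (r + 1) → ℝ) (p : Fin (r + 1)) :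
    (∑ i : Fin r, if i.val < p.val then gap F i else 0) = F p - F 0 := by
  induction p using Fin.induction with
  | zero => simp
  | succ j ih =>
    have h : ∀ i : Fin r, (if i.val < j.succ.val then gap F i else 0) =
        (if i.val < j.castSucc.val then gap F i else 0) + if i = j then gap F j else 0 := by
      intro i
      simp only [Fin.val_succ, Fin.val_castSucc]
      rcases lt_trichotomy i.val j.val with h | h | h
      · rw [if_pos (by omega), if_pos h, if_neg (fun e => h.ne (congrArg Fin.val e)), add_zero]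
      · obtain rfl : i = j := Fin.ext h
        simp
      · rw [if_neg (by omega), if_neg (by omega),
          if_neg (fun e => h.ne' (congrArg Fin.val e)), add_zero]
    rw [sum_congr rfl fun i _ => h i, sum_add_distrib, ih]
    simp only [sum_ite_eq', mem_univ, if_true, gap]
    ring

variable (ξ : Path)

/-- The correction `D_p` of the denominators. -/
def corr (p : Fin (ξ.r + 1)) : ℝ := denom 1 ξ.m ξ.q p - 1

lemma denom_eq (θ : ℝ) (p : Fin (ξ.r + 1)) : denom θ ξ.m ξ.q p = 1 + θ * corr ξ p := by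
  simp only [corr, denom]; ring

lemma corr_last : corr ξ (Fin.last ξ.r) = 1 - ξ.q (Fin.last ξ.r) := by
  rw [corr, Vale.Agent.P166.NW.denom_last]; ring

lemma corr_castSucc (i : Fin ξ.r) :
    corr ξ i.castSucc = corr ξ i.succ + ξ.m i * gap ξ.q i := by
  rw [corr, corr, Vale.Agent.P166.NW.denom_castSucc]; ring

lemma corr_mem (p : Fin (ξ.r + 1)) : 0 ≤ corr ξ p ∧ corr ξ p ≤ 1 := by
  have hg := gap_nonneg ξ.isPath.mono
  have h0 : 0 ≤ ∑ i : Fin ξ.r, if p.val ≤ i.val then ξ.m i * gap ξ.q i else 0 :=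
    sum_nonneg fun i _ => by
      split_ifs
      exacts [mul_nonneg (ξ.isPath.pos i).le (hg i), le_rfl]
  have h1 : (∑ i : Fin ξ.r, if p.val ≤ i.val then ξ.m i * gap ξ.q i else 0) ≤
      ∑ i : Fin ξ.r, gap ξ.q i := sum_le_sum fun i _ => by
    split_ifs
    exacts [mul_le_of_le_one_left (hg i) (ξ.isPath.lt_one i).le, hg i]
  rw [telescope] at h1
  simp only [corr, denom]
  constructor <;> linarith [ξ.isPath.le_one, ξ.isPath.nonneg]

/-- The second order of the pattern value. -/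
lemma bracket_eq :
    corr ξ (Fin.last ξ.r) ^ 2 +
        (∑ i : Fin ξ.r, gap ξ.q i * (corr ξ i.castSucc + corr ξ i.succ)) +
        2 * ξ.q 0 * corr ξ 0 =
      1 - ∑ p, weight ξ.m p * ξ.q p ^ 2 := by
  have e : ∀ i : Fin ξ.r, gap ξ.q i * (corr ξ i.castSucc + corr ξ i.succ) =
      ξ.m i * gap (fun p => ξ.q p ^ 2) i + gap (fun p => 2 * ξ.q p * corr ξ p) i := fun i => by
    simp only [gap, corr_castSucc]; ring
  rw [sum_congr rfl fun i _ => e i, sum_add_distrib, telescope,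
    sum_weight_mul ⟨ξ.isPath.pos, ξ.isPath.lt_one, ξ.isPath.strictMono⟩, corr_last]
  ring

lemma quadValue_ge {θ : ℝ} (hθ : 0 ≤ θ) :
    θ ^ 2 / 4 * (1 - ∑ p, weight ξ.m p * ξ.q p ^ 2) - 4 * θ ^ 3 ≤
      quadValue θ ξ.m ξ.q + θ / 2 := by
  have hD := corr_mem ξ
  have hm := ξ.isPath.pos
  have hg := gap_nonneg ξ.isPath.mono
  have hq0 := ξ.isPath.nonneg
  have hq1 : ξ.q 0 ≤ 1 := (ξ.isPath.mono (Fin.zero_le _)).trans ξ.isPath.le_one
  have el : ∀ p, Real.log (denom θ ξ.m ξ.q p) =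
      θ * corr ξ p - (θ * corr ξ p) ^ 2 / 2 + logRem (θ * corr ξ p) := fun p => by
    rw [denom_eq, logRem]; ring
  have eterm : ∀ i : Fin ξ.r, (Real.log (denom θ ξ.m ξ.q i.castSucc) -
        Real.log (denom θ ξ.m ξ.q i.succ)) / ξ.m i ≤
      θ * gap ξ.q i - θ ^ 2 / 2 * (gap ξ.q i * (corr ξ i.castSucc + corr ξ i.succ)) +
        2 * θ ^ 3 * gap ξ.q i := fun i => by
    rw [el, el, div_le_iff₀ (hm i)]
    have hd : corr ξ i.castSucc = corr ξ i.succ + ξ.m i * gap ξ.q i := corr_castSucc ξ i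
    have hs : 0 ≤ θ * corr ξ i.succ := mul_nonneg hθ (hD _).1
    have hle : θ * corr ξ i.succ ≤ θ * corr ξ i.castSucc := by
      rw [hd]; exact mul_le_mul_of_nonneg_left (le_add_of_nonneg_right
        (mul_nonneg (hm i).le (hg i))) hθ
    have h := logRem_sub hs hle
    have hb : (θ * corr ξ i.castSucc + θ * corr ξ i.succ) ^ 2 ≤ (2 * θ) ^ 2 :=
      pow_le_pow_left₀ (by linarith)
        (by nlinarith [(hD i.castSucc).2, (hD i.succ).2]) 2
    have h' := h.trans (div_le_div_of_nonneg_right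
      (mul_le_mul_of_nonneg_left hb (sub_nonneg.2 hle)) zero_le_two)
    rw [hd] at h' ⊢
    nlinarith [h']
  have hlast : Real.log (denom θ ξ.m ξ.q (Fin.last ξ.r)) ≤
      θ * corr ξ (Fin.last ξ.r) - θ ^ 2 / 2 * corr ξ (Fin.last ξ.r) ^ 2 + θ ^ 3 := by
    rw [el]
    have h := logRem_sub le_rfl (mul_nonneg hθ (hD (Fin.last ξ.r)).1)
    have h3 : (θ * corr ξ (Fin.last ξ.r)) ^ 3 ≤ θ ^ 3 :=
      pow_le_pow_left₀ (mul_nonneg hθ (hD _).1) (mul_le_of_le_one_right hθ (hD _).2) 3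
    have h0 : logRem 0 = 0 := by simp [logRem]
    rw [h0] at h
    nlinarith [mul_nonneg hθ (hD (Fin.last ξ.r)).1, pow_nonneg hθ 3]
  have hsum := sum_le_sum (s := univ) fun i (_ : i ∈ univ) => eterm i
  rw [sum_add_distrib, sum_sub_distrib, ← mul_sum, ← mul_sum, ← mul_sum, telescope] at hsum
  have hfrac : θ * ξ.q 0 * (1 - θ * corr ξ 0) ≥ θ * ξ.q 0 / denom θ ξ.m ξ.q 0 - θ ^ 3 := by
    have hd : 0 < 1 + θ * corr ξ 0 := by nlinarith [(hD 0).1]
    rw [denom_eq, ge_iff_le, sub_le_iff_le_add, div_le_iff₀ hd]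
    have hx : 0 ≤ θ * corr ξ 0 := mul_nonneg hθ (hD 0).1
    have h2 : (θ * corr ξ 0) ^ 2 ≤ θ ^ 2 :=
      pow_le_pow_left₀ hx (mul_le_of_le_one_right hθ (hD 0).2) 2
    nlinarith [mul_le_mul_of_nonneg_left h2 (mul_nonneg hθ hq0),
      mul_le_mul_of_nonneg_left hq1 (pow_nonneg hθ 3), mul_nonneg (pow_nonneg hθ 3) hx]
  have hq : ξ.q (Fin.last ξ.r) - ξ.q 0 ≤ 1 := by linarith [ξ.isPath.le_one]
  have hcube := mul_le_mul_of_nonneg_left hq (pow_nonneg hθ 3)
  have eQ := bracket_eq ξ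
  simp only [quadValue, quadConst, Fin.val_zero, Nat.zero_le, if_true]
  rw [show θ * ξ.q 0 / (2 * denom θ ξ.m ξ.q 0) = θ * ξ.q 0 / denom θ ξ.m ξ.q 0 / 2 by
    rw [div_div, mul_comm (denom _ _ _ _) 2]]
  rw [← eQ]
  have hl : corr ξ (Fin.last ξ.r) = 1 - ξ.q (Fin.last ξ.r) := corr_last ξ
  rw [hl] at hlast ⊢
  nlinarith [hsum, hlast, hfrac, hcube]

lemma quadSlope_mem {θ : ℝ} (hθ : 0 ≤ θ) (p : Fin (ξ.r + 1)) :
    θ ^ 2 * ((1 - 2 * θ) * ξ.q p) ≤ quadSlope θ ξ.m ξ.q p ∧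
      quadSlope θ ξ.m ξ.q p ≤ θ ^ 2 * ξ.q p := by
  have hd : ∀ a b : Fin (ξ.r + 1), 1 ≤ denom θ ξ.m ξ.q a * denom θ ξ.m ξ.q b ∧
      (1 - 2 * θ) * (denom θ ξ.m ξ.q a * denom θ ξ.m ξ.q b) ≤ 1 := fun a b => by
    rw [denom_eq, denom_eq]
    obtain ⟨ha0, ha1⟩ := corr_mem ξ a
    obtain ⟨hb0, hb1⟩ := corr_mem ξ b
    have hx := mul_nonneg hθ ha0
    have hy := mul_nonneg hθ hb0
    constructor
    · nlinarith [mul_nonneg hx hy]
    · have hx1 := mul_le_of_le_one_right hθ ha1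
      have hy1 := mul_le_of_le_one_right hθ hb1
      nlinarith [mul_nonneg hx hy, mul_le_mul hx1 hy1 hy hθ, mul_nonneg (mul_nonneg hx hy) hθ,
        mul_nonneg hθ hx, mul_nonneg hθ hy]
  have key : ∀ {u : ℝ}, 0 ≤ u → ∀ a b, (1 - 2 * θ) * u ≤
      u / (denom θ ξ.m ξ.q a * denom θ ξ.m ξ.q b) ∧
      u / (denom θ ξ.m ξ.q a * denom θ ξ.m ξ.q b) ≤ u := fun {u} hu a b => by
    obtain ⟨h1, h2⟩ := hd a b
    refine ⟨?_, div_le_self hu h1⟩
    rw [le_div_iff₀ (by linarith)]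
    nlinarith [mul_le_mul_of_nonneg_left h2 hu]
  obtain ⟨k1, k2⟩ := key ξ.isPath.nonneg 0 0
  have hg := gap_nonneg ξ.isPath.mono
  have ht := telescope_lt ξ.q p
  simp only [quadSlope, sq (denom θ ξ.m ξ.q 0)]
  constructor <;> refine mul_le_mul_of_nonneg_left ?_ (sq_nonneg θ)
  · have h := sum_le_sum (s := univ) fun i (_ : i ∈ univ) =>
      (show (1 - 2 * θ) * (if i.val < p.val then gap ξ.q i else 0) ≤
          (if i.val < p.val then
            gap ξ.q i / (denom θ ξ.m ξ.q i.castSucc * denom θ ξ.m ξ.q i.succ) else 0) by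
        split_ifs
        exacts [(key (hg i) _ _).1, (mul_zero _).le])
    rw [← mul_sum, ht] at h
    linarith
  · have h := sum_le_sum (s := univ) fun i (_ : i ∈ univ) =>
      (show (if i.val < p.val then
            gap ξ.q i / (denom θ ξ.m ξ.q i.castSucc * denom θ ξ.m ξ.q i.succ) else 0) ≤
          (if i.val < p.val then gap ξ.q i else 0) by
        split_ifs
        exacts [(key (hg i) _ _).2, le_rfl])
    rw [ht] at h
    linarith

/-- The negative Wishart functional dominates the Sherrington-Kirkpatrick one up to order `θ`. -/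
theorem parisi_ge {θ L β : ℝ} (hθ : 0 < θ) (hL : 0 < L) (hβ : L * θ ^ 2 = β ^ 2) :
    siteValue ξ.m (fun p => β ^ 2 * ξ.q p) +
        β ^ 2 / 4 * (1 + ∑ p, weight ξ.m p * ξ.q p ^ 2) - 6 * β ^ 2 * θ ≤
      parisi L (quadPot θ) ξ.m ξ.q + L * θ / 2 := by
  obtain ⟨-, hv, hs⟩ := Vale.Agent.P166.NW.quad_stmt θ hθ ξ
  have hw := Vale.Agent.P157.Parisi.Up.weight_nonneg
    (m := ξ.m) ⟨ξ.isPath.pos, ξ.isPath.lt_one, ξ.isPath.strictMono⟩
  have hsm : Monotone (quadSlope θ ξ.m ξ.q) :=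
    Vale.Agent.P166.NW.gap_slope_nonneg hθ.le (fun i => (ξ.isPath.pos i).le)
      ξ.isPath.mono ξ.isPath.le_one
  have hq0 := ξ.isPath.nonneg
  have hs0 : 0 ≤ quadSlope θ ξ.m ξ.q 0 := by
    simp only [quadSlope]
    exact mul_nonneg (sq_nonneg θ) (add_nonneg (div_nonneg hq0 (sq_nonneg _))
      (sum_nonneg fun i _ => by simp))
  have hsite := Vale.Agent.P166.NW.siteMono ξ.r ξ.m
    ⟨ξ.isPath.pos, ξ.isPath.lt_one, ξ.isPath.strictMono⟩ (fun p => β ^ 2 * ξ.q p)
    (fun p => L * quadSlope θ ξ.m ξ.q p) 0 le_rfl (ξ.isPath.mono.const_mul (sq_nonneg β))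
    (mul_nonneg (sq_nonneg β) hq0) (hsm.const_mul hL.le) (mul_nonneg hL.le hs0) fun p => by
      rw [add_zero, ← hβ, mul_assoc]
      exact mul_le_mul_of_nonneg_left (quadSlope_mem ξ hθ.le p).2 hL.le
  set W := ∑ p, weight ξ.m p * ξ.q p ^ 2
  have hW1 : W ≤ 1 := by
    refine (sum_le_sum fun p _ => mul_le_of_le_one_right (hw p) ?_).trans
      (Vale.Agent.P157.Parisi.Up.sum_weight ξ.m).le
    exact pow_le_one₀ (hq0.trans (ξ.isPath.mono (Fin.zero_le p)))
      ((ξ.isPath.mono (Fin.le_last p)).trans ξ.isPath.le_one)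
  have hpair : θ ^ 2 * (1 - 2 * θ) * W ≤ ∑ p, weight ξ.m p * ξ.q p * quadSlope θ ξ.m ξ.q p := by
    rw [mul_sum]
    refine sum_le_sum fun p _ => ?_
    have := mul_le_mul_of_nonneg_left (quadSlope_mem ξ hθ.le p).1
      (mul_nonneg (hw p) (hq0.trans (ξ.isPath.mono (Fin.zero_le p))))
    nlinarith
  simp only [parisi, hs, hv]
  have h1 := mul_le_mul_of_nonneg_left (quadValue_ge ξ hθ.le) hL.le
  have h2 := mul_le_mul_of_nonneg_left hpair hL.le
  have h3 := mul_le_mul_of_nonneg_left hW1 (mul_nonneg (sq_nonneg β) hθ.le)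
  have e3 : L * θ ^ 3 = β ^ 2 * θ := by rw [← hβ]; ring
  nlinarith [h1, h2, h3, hsite, e3]

end Vale.Agent.P146.Div.Lower
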