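import Vale.Agent.P146.Div.Lower.Iterate
import Vale.Agent.P146.Gibbs
import Vale.Agent.P157.Parisi.Main.Energy
import Vale.Agent.P166.NW.Defs

/-!
The pressure of the negative Wishart model against the pressure of the Sherrington-Kirkpatrick
model.
-/

noncomputable section

open MeasureTheory ProbabilityTheory
open scoped BigOperators

namespace Vale.Agent.P146.Div.Lower

open Vale.Agent.P157 (gam dot patterns meanPressure isingLaw)
open Vale.Agent.P157.Parisi (Cube sv unitVec)
open Vale.Agent.P166.NW (quadPot)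

lemma tiltP_zero (n : ℕ) (β : ℝ) :
    tiltP n β 0 0 = (1 / (n : ℝ)) * ∫ g, freeEnergy n β g ∂disorder n := by
  rw [← Vale.Agent.P146.disorder_map, integral_map
    (measurable_pi_lambda _ fun p => measurable_pi_apply _).aemeasurable
    (show Measurable (freeEnergy n β) by unfold freeEnergy hamiltonian; fun_prop).aestronglyMeasurable]
  simp [tiltP, tiltE, mean, freeEnergy, energy]

lemma quadPot_eq {N : ℕ} (θ : ℝ) (g : Fin N → ℝ) (σ : Cube N) :
    quadPot θ ((∑ i, g i * sv σ i) / Real.sqrt N) = sqProc θ g σ - θ / 2 := by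
  have : (∑ i, g i * sv σ i) / Real.sqrt N = dot g (unitVec σ) := by
    simp only [Vale.Agent.P157.dot, unitVec, Finset.sum_div, mul_div_assoc]
  rw [this, quadPot, sqProc]
  ring

lemma gProc_eq {N : ℕ} (θ : ℝ) (h : Pair N → ℝ) (σ : Cube N) :
    gProc θ h σ = θ / Real.sqrt N * hamiltonian N h σ := by
  simp only [gProc, hamiltonian, pairVec, unitVec, Vale.Agent.P157.dot, Finset.mul_sum,
    Finset.sum_div]
  refine Finset.sum_congr rfl fun e _ => ?_
  have : ∀ i, sv σ i = spin (σ i) := fun i => rfl
  rw [this, this]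
  ring

/-- The negative Wishart pressure is at most the Sherrington-Kirkpatrick pressure, up to `1/√L`. -/
theorem pressure_le {N L : ℕ} (hN : 0 < N) (hL : 0 < L) {β : ℝ} (hβ : 0 ≤ β)
    (hθ : β / Real.sqrt L ≤ 1 / 8) :
    meanPressure isingLaw (L : ℝ) (quadPot (β / Real.sqrt L)) N + L * (β / Real.sqrt L) / 2 ≤
      tiltP N β 0 0 - Real.log 2 + L * (stepConst * (β / Real.sqrt L) ^ 3) := by
  set θ := β / Real.sqrt L with hθdef
  set M := L * N with hM
  have hfl : ⌊(L : ℝ) * N⌋₊ = M := by rw [hM, ← Nat.cast_mul, Nat.floor_natCast]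
  have h := iterate_le hN (by positivity : 0 ≤ θ) hθ M (p := fun _ => ((2 : ℝ) ^ N)⁻¹)
    fun _ => by positivity
  have hq : Measurable (quadPot θ) := by unfold quadPot; fun_prop
  have e1 : ∀ g : Fin M → Fin N → ℝ, Real.log (∫ x, Real.exp (∑ a,
      quadPot θ ((∑ i, g a i * x i) / Real.sqrt N)) ∂isingLaw N) =
      lse (fun _ => ((2 : ℝ) ^ N)⁻¹) (fun σ => ∑ a, sqProc θ (g a) σ) - M * (θ / 2) := fun g => by
    rw [Vale.Agent.P157.Parisi.Main.integral_rad_pi _ (by fun_prop)]
    simp only [lse, quadPot_eq, Finset.sum_sub_distrib, Finset.sum_const, Finset.card_univ,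
      Fintype.card_fin, nsmul_eq_mul, Real.exp_sub, ← Finset.sum_div, ← Finset.mul_sum]
    rw [Real.log_div (by positivity) (by positivity), Real.log_div
      (Finset.sum_pos (fun _ _ => Real.exp_pos _) Finset.univ_nonempty).ne' (by positivity),
      Real.log_exp, Real.log_mul (by positivity)
      (Finset.sum_pos (fun _ _ => Real.exp_pos _) Finset.univ_nonempty).ne', Real.log_inv]
    ring
  have hi : Integrable (fun g : Fin M → Fin N → ℝ => lse (fun _ => ((2 : ℝ) ^ N)⁻¹)
      fun σ => ∑ a, sqProc θ (g a) σ) (patterns M N) :=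
    have : IsProbabilityMeasure (patterns M N) := by
      unfold Vale.Agent.P157.patterns; infer_instance
    integrable_lse (fun _ => by positivity)
      (fun σ => Finset.measurable_sum _ fun a _ =>
        (measurable_sqProc θ σ).comp (measurable_pi_apply a))
      fun σ => integrable_finsetSum _ fun a _ =>
        (measurePreserving_eval (fun _ : Fin M => gam (Fin N)) a).integrable_comp_of_integrable
          (integrable_sqProc θ σ)
  have e2 : meanPressure isingLaw (L : ℝ) (quadPot θ) N = (1 / (N : ℝ)) *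
      ((∫ g, lse (fun _ => ((2 : ℝ) ^ N)⁻¹) (fun σ => ∑ a, sqProc θ (g a) σ) ∂patterns M N) -
        M * (θ / 2)) := by
    have : IsProbabilityMeasure (patterns M N) := by
      unfold Vale.Agent.P157.patterns; infer_instance
    rw [meanPressure, hfl, integral_const_mul]
    simp only [e1]
    rw [integral_sub hi (integrable_const _), integral_const, probReal_univ, one_smul]
  have hsN : (0 : ℝ) < Real.sqrt N := Real.sqrt_pos.2 (Nat.cast_pos.2 hN)
  have hsL : (0 : ℝ) < Real.sqrt L := Real.sqrt_pos.2 (Nat.cast_pos.2 hL)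
  have e3 : ∀ g : Pair N → ℝ, lse (fun _ => ((2 : ℝ) ^ N)⁻¹)
      (fun σ => Real.sqrt M * gProc θ g σ) = freeEnergy N β g - N * Real.log 2 := fun g => by
    have : ∀ σ, Real.sqrt M * gProc θ g σ = β * hamiltonian N g σ := fun σ => by
      rw [gProc_eq, hM, Nat.cast_mul, Real.sqrt_mul (Nat.cast_nonneg L), hθdef]
      field_simp
    simp only [lse, this, ← Finset.mul_sum, freeEnergy]
    rw [Real.log_mul (by positivity)
      (Finset.sum_pos (fun _ _ => Real.exp_pos _) Finset.univ_nonempty).ne', Real.log_inv,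
      Real.log_pow]
    ring
  simp only [e3] at h
  have hFi : Integrable (freeEnergy N β) (gam (Pair N)) := by
    refine ((integrable_lse (p := fun _ : Cube N => ((2 : ℝ) ^ N)⁻¹) (fun _ => by positivity)
      (fun σ => ((measurable_gProc θ σ).const_mul (Real.sqrt M)))
      fun σ => (integrable_gProc θ σ).const_mul (Real.sqrt M)).add
        (integrable_const ((N : ℝ) * Real.log 2))).congr (ae_of_all _ fun g => ?_)
    simp only [Pi.add_apply, e3, sub_add_cancel]
  rw [integral_sub hFi (integrable_const _), integral_const, probReal_univ, one_smul] at h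
  have e4 : tiltP N β 0 0 = (1 / (N : ℝ)) * ∫ g, freeEnergy N β g ∂gam (Pair N) := tiltP_zero N β
  rw [e2, e4]
  have hNr : (0 : ℝ) < N := Nat.cast_pos.2 hN
  have h' := mul_le_mul_of_nonneg_left h (one_div_nonneg.2 hNr.le)
  have hMr : (M : ℝ) = L * N := by rw [hM, Nat.cast_mul]
  rw [hMr] at h' ⊢
  field_simp at h' ⊢
  linarith

end Vale.Agent.P146.Div.Lower
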