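import Vale.Agent.P146.Div.Defs
import Vale.Agent.P166.NW.SiteMono
import Vale.Agent.P166.NW.Quad.Refine

/-!
A level of small mass in front of a path.
-/

noncomputable section

open MeasureTheory ProbabilityTheory Finset
open scoped BigOperators

namespace Vale.Agent.P146.Div.Lower

open Vale.Agent.P157.Parisi (Path level layer siteValue weight IsPath)
open Vale.Agent.P157.Parisi.Site (Grow integrable_exp_abs)
open Vale.Agent.P166.NW (gap sum_weight_mul)

lemma exp_le_quad {t : ℝ} (ht : 0 ≤ t) : Real.exp t ≤ 1 + t + t ^ 2 * Real.exp t := by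
  have h := mul_le_mul_of_nonneg_left (Real.add_one_le_exp (-t)) (Real.exp_pos t).le
  rw [← Real.exp_add, add_neg_cancel, Real.exp_zero] at h
  rcases le_or_gt t 1 with h1 | h1
  · nlinarith [mul_le_mul_of_nonneg_right h (by linarith : (0 : ℝ) ≤ 1 + t)]
  · nlinarith [Real.exp_pos t, mul_nonneg (Real.exp_pos t).le
      (show (0 : ℝ) ≤ t ^ 2 - 1 by nlinarith)]

/-- A step of small mass is close to the plain mean. -/
lemma layer_small {A : ℝ} {F : ℝ → ℝ} (hF : Grow A F) (s : ℝ) :
    ∃ K : ℝ, 0 ≤ K ∧ ∀ η : ℝ, 0 < η → η ≤ 1 →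
      layer η s F 0 ≤ (∫ g, F (Real.sqrt s * g) ∂gaussianReal 0 1) + η * K := by
  have hA : 0 ≤ A := Vale.Agent.P166.NW.grow_nonneg hF
  set a := Real.sqrt s
  have ha : 0 ≤ a := Real.sqrt_nonneg s
  have hi : Integrable (fun g => F (a * g)) (gaussianReal 0 1) := by
    simpa using Vale.Agent.P166.NW.integrable_shift hF 0 a
  have hm : Measurable fun g => F (a * g) := hF.meas.comp (measurable_const_mul a)
  have hq : Integrable (fun g => F (a * g) ^ 2 * Real.exp (F (a * g))) (gaussianReal 0 1) := by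
    refine ((integrable_exp_abs (3 * a)).const_mul (Real.exp (3 * A))).mono'
      ((hm.pow_const 2).mul hm.exp).aestronglyMeasurable (ae_of_all _ fun g => ?_)
    have h0 := hF.nonneg (a * g)
    have h1 := hF.le (a * g)
    rw [abs_mul, abs_of_nonneg ha] at h1
    rw [Real.norm_eq_abs, abs_of_nonneg (by positivity), ← Real.exp_add]
    have h2 : F (a * g) ^ 2 ≤ Real.exp (2 * F (a * g)) := by
      rw [two_mul, Real.exp_add, sq]
      have := Real.add_one_le_exp (F (a * g))
      exact mul_le_mul (by linarith) (by linarith) h0 (Real.exp_pos _).le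
    calc F (a * g) ^ 2 * Real.exp (F (a * g)) ≤ Real.exp (2 * F (a * g) + F (a * g)) := by
          rw [Real.exp_add]; exact mul_le_mul_of_nonneg_right h2 (Real.exp_pos _).le
      _ ≤ _ := Real.exp_le_exp.2 (by linarith)
  refine ⟨∫ g, F (a * g) ^ 2 * Real.exp (F (a * g)) ∂gaussianReal 0 1,
    integral_nonneg fun g => by positivity, fun η hη hη1 => ?_⟩
  have he : Integrable (fun g => Real.exp (η * F (a * g))) (gaussianReal 0 1) := by
    simpa using hF.integrable_exp hη.le 0 a
  have hone : (1 : ℝ) ≤ ∫ g, Real.exp (η * F (a * g)) ∂gaussianReal 0 1 := by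
    refine le_trans (by simp) (integral_mono (integrable_const (1 : ℝ)) he fun g => ?_)
    exact Real.one_le_exp (mul_nonneg hη.le (hF.nonneg _))
  have h : ∫ g, Real.exp (η * F (a * g)) ∂gaussianReal 0 1 ≤
      1 + η * (∫ g, F (a * g) ∂gaussianReal 0 1) +
        η ^ 2 * ∫ g, F (a * g) ^ 2 * Real.exp (F (a * g)) ∂gaussianReal 0 1 := by
    refine (integral_mono he (((integrable_const (1 : ℝ)).fun_add (hi.const_mul η)).fun_add
      (hq.const_mul (η ^ 2))) fun g => ?_).trans (le_of_eq ?_)
    · have h0 := hF.nonneg (a * g)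
      have h1 := exp_le_quad (mul_nonneg hη.le h0)
      have h2 := mul_le_mul_of_nonneg_left
        (Real.exp_le_exp.2 (mul_le_of_le_one_left h0 hη1))
        (sq_nonneg (η * F (a * g)))
      have : η ^ 2 * (F (a * g) ^ 2 * Real.exp (F (a * g))) =
          (η * F (a * g)) ^ 2 * Real.exp (F (a * g)) := by ring
      linarith
    · rw [integral_add ((integrable_const (1 : ℝ)).fun_add (hi.const_mul η)) (hq.const_mul _),
        integral_add (integrable_const _) (hi.const_mul η), integral_const_mul, integral_const_mul]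
      simp
  simp only [layer, zero_add]
  rw [one_div_mul_eq_div, div_le_iff₀ hη]
  have := Real.log_le_sub_one_of_pos (zero_lt_one.trans_le hone)
  linarith

/-- Every path can be started at zero at arbitrarily small cost. -/
theorem exists_zero_start (ξ₀ : Path) (β : ℝ) {δ : ℝ} (hδ : 0 < δ) :
    ∃ ξ : Path, ξ.q 0 = 0 ∧ skVal β ξ ≤ skVal β ξ₀ + δ := by
  obtain ⟨r, m, q, hq⟩ := ξ₀
  set ρ : Fin (r + 1) → ℝ := fun p => β ^ 2 * q p with hρ
  obtain ⟨A, hA⟩ := Grow.level hq.pos ρ Vale.Agent.P166.NW.grow_logCosh'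
  obtain ⟨K, hK, hlay⟩ := layer_small hA (ρ 0)
  obtain ⟨η, hη0, hη1, hηm, hηK⟩ : ∃ η : ℝ, 0 < η ∧ η < 1 ∧ (∀ i, η < m i) ∧ η * K ≤ δ := by
    have h : ∀ᶠ η : ℝ in nhdsWithin 0 (Set.Ioi 0),
        0 < η ∧ η < 1 ∧ (∀ i, η < m i) ∧ η < δ / (K + 1) :=
      (eventually_mem_nhdsWithin).and (((eventually_lt_nhds one_pos).filter_mono
        nhdsWithin_le_nhds).and ((Filter.eventually_all.2 fun i =>
          (eventually_lt_nhds (hq.pos i)).filter_mono nhdsWithin_le_nhds).and
        ((eventually_lt_nhds (by positivity)).filter_mono nhdsWithin_le_nhds)))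
    obtain ⟨η, h1, h2, h3, h4⟩ := h.exists
    refine ⟨η, h1, h2, h3, ?_⟩
    rw [lt_div_iff₀ (by linarith)] at h4
    nlinarith
  have hp : IsPath (Fin.cons η m : Fin (r + 1) → ℝ) (Fin.cons 0 q : Fin (r + 2) → ℝ) :=
    { pos := Fin.cases (by simpa using hη0) fun i => by simpa using hq.pos i
      lt_one := Fin.cases (by simpa using hη1) fun i => by simpa using hq.lt_one i
      strictMono := by
        refine Fin.strictMono_iff_lt_succ.2 fun i => ?_
        cases r with
        | zero => exact i.elim0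
        | succ r =>
          refine Fin.cases ?_ (fun j => ?_) i
          · simpa using hηm 0
          · rw [← Fin.succ_castSucc, Fin.cons_succ, Fin.cons_succ]
            exact hq.strictMono (Fin.castSucc_lt_succ)
      mono := by
        refine Fin.monotone_iff_le_succ.2 fun i => ?_
        refine Fin.cases ?_ (fun j => ?_) i
        · simpa using hq.nonneg
        · rw [← Fin.succ_castSucc, Fin.cons_succ, Fin.cons_succ]
          exact hq.mono (Fin.castSucc_le_succ j)
      nonneg := by simp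
      le_one := by rw [← Fin.succ_last, Fin.cons_succ]; exact hq.le_one }
  refine ⟨⟨r + 1, Fin.cons η m, Fin.cons 0 q, hp⟩, by simp, ?_⟩
  have hs : siteValue (Fin.cons η m : Fin (r + 1) → ℝ)
      (fun p => β ^ 2 * (Fin.cons 0 q : Fin (r + 2) → ℝ) p) ≤ siteValue m ρ + η * K := by
    have e1 : level (Fin.cons η m : Fin (r + 1) → ℝ)
        (fun p => β ^ 2 * (Fin.cons 0 q : Fin (r + 2) → ℝ) p)
        (fun x => Real.log (Real.cosh x)) 0 =
        layer η (ρ 0) (level m ρ (fun x => Real.log (Real.cosh x)) 0) := by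
      rw [Vale.Agent.P157.Parisi.level]
      simp [Fin.tail_def, hρ]
    have e2 : β ^ 2 * (Fin.cons 0 q : Fin (r + 2) → ℝ) (Fin.last (r + 1)) = ρ (Fin.last r) := by
      rw [← Fin.succ_last, Fin.cons_succ]
    simp only [siteValue, e1, e2, Fin.cons_zero, mul_zero, Real.sqrt_zero, zero_mul,
      integral_const, probReal_univ, one_smul]
    linarith [hlay η hη0 hη1.le]
  have hw : ∑ p, weight (Fin.cons η m : Fin (r + 1) → ℝ) p *
      (Fin.cons 0 q : Fin (r + 2) → ℝ) p ^ 2 ≤ ∑ p, weight m p * q p ^ 2 := by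
    rw [sum_weight_mul ⟨hp.pos, hp.lt_one, hp.strictMono⟩,
      sum_weight_mul ⟨hq.pos, hq.lt_one, hq.strictMono⟩, Fin.sum_univ_succ]
    simp only [← Fin.succ_last, Fin.cons_succ, Fin.cons_zero, gap, ← Fin.succ_castSucc,
      Fin.castSucc_zero]
    have : 0 ≤ η * (q 0 ^ 2) := mul_nonneg hη0.le (sq_nonneg _)
    linarith [this]
  simp only [skVal]
  nlinarith [hs, mul_le_mul_of_nonneg_left hw (sq_nonneg β)]

end Vale.Agent.P146.Div.Lower
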