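import Vale.Agent.P146.Div.Lower.Lse
import Vale.Agent.P157.Parisi.Cavity.Gauss
import Vale.Agent.P157.Threshold
import Vale.Agent.P157.Parisi.Site.Levels

/-!
Comparison of many centred squares of Gaussian linear forms with one Gaussian quadratic form.
-/

noncomputable section

open MeasureTheory ProbabilityTheory Filter
open scoped BigOperators Topology

namespace Vale.Agent.P146.Div.Lower

open Vale.Agent.P157 (gam gam1 dot map_dot_unit integral_dot integral_dot_sq integrable_pow9
  integral_sub_one_sq map_combine patterns)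
open Vale.Agent.P157.Parisi (Cube sv unitVec)
open Vale.Agent.P157.Parisi.Site (integrable_exp_abs)

/-! ### An expected expansion -/

variable {ι : Type*} [Fintype ι] [Nonempty ι]

/-- The variance of a weighted mean with covariance `C`. -/
def wVar (p : ι → ℝ) (C : ι → ι → ℝ) : ℝ :=
  (∑ i, p i * C i i) / (∑ i, p i) - (∑ i, ∑ j, p i * p j * C i j) / (∑ i, p i) ^ 2

lemma wVar_sub_const {p : ι → ℝ} (hp : ∀ i, 0 < p i) (C : ι → ι → ℝ) (c : ℝ) :
    wVar p (fun i j => C i j - c) = wVar p C := by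
  have hS : (∑ i, p i) ≠ 0 := (Finset.sum_pos (fun i _ => hp i) Finset.univ_nonempty).ne'
  simp only [wVar, mul_sub, Finset.sum_sub_distrib, ← Finset.sum_mul, ← Finset.mul_sum]
  field_simp
  ring

lemma abs_log_sum_exp {p z : ι → ℝ} (hp : ∀ i, 0 < p i) :
    |Real.log (∑ i, p i * Real.exp (z i))| ≤ |Real.log (∑ i, p i)| + ∑ i, |z i| := by
  set S := ∑ i, p i
  have hS : 0 < S := Finset.sum_pos (fun i _ => hp i) Finset.univ_nonempty
  set B := ∑ i, |z i|
  have hb : ∀ i, |z i| ≤ B := fun i =>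
    Finset.single_le_sum (fun j _ => abs_nonneg (z j)) (Finset.mem_univ i)
  have h1 : S * Real.exp (-B) ≤ ∑ i, p i * Real.exp (z i) := by
    rw [Finset.sum_mul]
    exact Finset.sum_le_sum fun i _ => mul_le_mul_of_nonneg_left
      (Real.exp_le_exp.2 (by linarith [hb i, neg_abs_le (z i)])) (hp i).le
  have h2 : ∑ i, p i * Real.exp (z i) ≤ S * Real.exp B := by
    rw [Finset.sum_mul]
    exact Finset.sum_le_sum fun i _ => mul_le_mul_of_nonneg_left
      (Real.exp_le_exp.2 (by linarith [hb i, le_abs_self (z i)])) (hp i).le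
  have l1 := Real.log_le_log (mul_pos hS (Real.exp_pos _)) h1
  have l2 := Real.log_le_log ((mul_pos hS (Real.exp_pos _)).trans_le h1) h2
  rw [Real.log_mul hS.ne' (Real.exp_pos _).ne', Real.log_exp] at l1 l2
  rw [abs_le]
  constructor <;> linarith [neg_abs_le (Real.log S), le_abs_self (Real.log S)]

lemma mean_lse {Ω : Type*} [MeasurableSpace Ω] {μ : Measure Ω} [IsProbabilityMeasure μ]
    {Z : Ω → ι → ℝ} (hZ : ∀ i, Measurable fun ω => Z ω i) {p : ι → ℝ} (hp : ∀ i, 0 < p i)
    {C : ι → ι → ℝ} {K : ℝ} (h2 : ∀ i, MemLp (fun ω => Z ω i) 2 μ)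
    (h0 : ∀ i, ∫ ω, Z ω i ∂μ = 0) (hC : ∀ i j, ∫ ω, Z ω i * Z ω j ∂μ = C i j)
    (h3i : ∀ i, Integrable (fun ω => |Z ω i| ^ 3 * Real.exp (2 * |Z ω i|)) μ)
    (h3 : ∀ i, ∫ ω, |Z ω i| ^ 3 * Real.exp (2 * |Z ω i|) ∂μ ≤ K) :
    Integrable (fun ω => Real.log (∑ i, p i * Real.exp (Z ω i))) μ ∧
      |(∫ ω, Real.log (∑ i, p i * Real.exp (Z ω i)) ∂μ) - Real.log (∑ i, p i) - wVar p C / 2| ≤
        6 * K := by
  set S := ∑ i, p i
  have hS : 0 < S := Finset.sum_pos (fun i _ => hp i) Finset.univ_nonempty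
  have i1 : ∀ i, Integrable (fun ω => Z ω i) μ := fun i => (h2 i).integrable one_le_two
  have i2 : ∀ i j, Integrable (fun ω => Z ω i * Z ω j) μ := fun i j => (h2 i).integrable_mul (h2 j)
  have hlog : Integrable (fun ω => Real.log (∑ i, p i * Real.exp (Z ω i))) μ := by
    refine ((integrable_const (|Real.log S|)).add
      (integrable_finsetSum Finset.univ fun i _ => (i1 i).abs)).mono'
      (Finset.measurable_sum _ fun i _ => ((hZ i).exp.const_mul _)).log.aestronglyMeasurable
      (ae_of_all _ fun ω => ?_)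
    simpa using abs_log_sum_exp (z := Z ω) hp
  refine ⟨hlog, ?_⟩
  set main := fun ω => Real.log S + (∑ i, p i * Z ω i) / S +
    ((∑ i, p i * (Z ω i * Z ω i)) / S - (∑ i, ∑ j, p i * p j * (Z ω i * Z ω j)) / S ^ 2) / 2
  set err := fun ω => 6 * ((∑ i, p i * (|Z ω i| ^ 3 * Real.exp (2 * |Z ω i|))) / S)
  have j1 : Integrable (fun ω => (∑ i, p i * Z ω i) / S) μ :=
    (integrable_finsetSum Finset.univ fun i _ => (i1 i).const_mul (p i)).div_const S
  have j2 : Integrable (fun ω => (∑ i, p i * (Z ω i * Z ω i)) / S) μ :=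
    (integrable_finsetSum Finset.univ fun i _ => (i2 i i).const_mul (p i)).div_const S
  have j3 : Integrable (fun ω => (∑ i, ∑ j, p i * p j * (Z ω i * Z ω j)) / S ^ 2) μ :=
    (integrable_finsetSum Finset.univ fun i _ => integrable_finsetSum Finset.univ fun j _ =>
      (i2 i j).const_mul (p i * p j)).div_const (S ^ 2)
  have j4 : Integrable (fun ω => Real.log S + (∑ i, p i * Z ω i) / S) μ :=
    (integrable_const _).add j1
  have j5 : Integrable (fun ω => ((∑ i, p i * (Z ω i * Z ω i)) / S -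
      (∑ i, ∑ j, p i * p j * (Z ω i * Z ω j)) / S ^ 2) / 2) μ := (j2.sub' j3).div_const 2
  have hmain : Integrable main μ := j4.add j5
  have hpt : ∀ ω, |Real.log (∑ i, p i * Real.exp (Z ω i)) - main ω| ≤ err ω := fun ω => by
    have h := lse_expand (z := Z ω) hp
    refine le_trans (le_of_eq (congrArg abs ?_)) (h.trans (le_of_eq (by rfl)))
    simp only [main]
    rw [div_pow, sq (∑ i, p i * Z ω i), Finset.sum_mul_sum]
    have e : ∀ i j, p i * Z ω i * (p j * Z ω j) = p i * p j * (Z ω i * Z ω j) :=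
      fun i j => by ring
    simp only [e, ← sq]
    ring
  have herr : Integrable err μ :=
    ((integrable_finsetSum Finset.univ fun i _ => (h3i i).const_mul (p i)).div_const S).const_mul 6
  have hem : ∫ ω, main ω ∂μ = Real.log S + wVar p C / 2 := by
    have e1 : ∫ ω, (∑ i, p i * Z ω i) / S ∂μ = 0 := by
      rw [integral_div, integral_finsetSum _ fun i _ => (i1 i).const_mul (p i)]
      simp [integral_const_mul, h0]
    have e2 : ∫ ω, (∑ i, p i * (Z ω i * Z ω i)) / S ∂μ = (∑ i, p i * C i i) / S := by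
      rw [integral_div, integral_finsetSum _ fun i _ => (i2 i i).const_mul (p i)]
      simp only [integral_const_mul, hC]
    have e3 : ∫ ω, (∑ i, ∑ j, p i * p j * (Z ω i * Z ω j)) / S ^ 2 ∂μ =
        (∑ i, ∑ j, p i * p j * C i j) / S ^ 2 := by
      rw [integral_div, integral_finsetSum _ fun i _ => integrable_finsetSum Finset.univ fun j _ =>
        (i2 i j).const_mul (p i * p j)]
      refine congrArg (· / _) (Finset.sum_congr rfl fun i _ => ?_)
      rw [integral_finsetSum _ fun j _ => (i2 i j).const_mul _]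
      simp only [integral_const_mul, hC]
    simp only [main]
    rw [integral_add j4 j5, integral_add (integrable_const _) j1, e1, integral_div,
      integral_sub j2 j3, e2, e3, integral_const, probReal_univ, one_smul, add_zero]
    rfl
  have hee : ∫ ω, err ω ∂μ ≤ 6 * K := by
    simp only [err]
    rw [integral_const_mul, integral_div, integral_finsetSum _ fun i _ => (h3i i).const_mul (p i)]
    refine mul_le_mul_of_nonneg_left ?_ (by norm_num)
    rw [div_le_iff₀ hS, Finset.mul_sum]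
    refine Finset.sum_le_sum fun i _ => ?_
    rw [integral_const_mul, mul_comm K]
    exact mul_le_mul_of_nonneg_left (h3 i) (hp i).le
  have h := (abs_integral_le_integral_abs (f := fun ω =>
    Real.log (∑ i, p i * Real.exp (Z ω i)) - main ω) (μ := μ)).trans
      (integral_mono (hlog.sub hmain).abs herr hpt)
  rw [integral_sub hlog hmain, hem] at h
  refine le_trans (le_of_eq (congrArg abs ?_)) (h.trans hee)
  ring

/-! ### Gaussian linear forms -/

variable {κ : Type*} [Fintype κ]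

lemma measurable_dot' (u : κ → ℝ) : Measurable fun g : κ → ℝ => dot g u := by
  unfold Vale.Agent.P157.dot; fun_prop

lemma dot_add (g u v : κ → ℝ) : dot g (fun i => u i + v i) = dot g u + dot g v := by
  simp [Vale.Agent.P157.dot, mul_add, Finset.sum_add_distrib]

lemma dot_sub (g u v : κ → ℝ) : dot g (fun i => u i - v i) = dot g u - dot g v := by
  simp [Vale.Agent.P157.dot, mul_sub, Finset.sum_sub_distrib]

/-- A linear form is a multiple of a unit one. -/
lemma exists_unit (u : κ → ℝ) :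
    (∀ g, dot g u = 0) ∧ ∑ i, u i ^ 2 = 0 ∨
      ∃ v : κ → ℝ, ∑ i, v i ^ 2 = 1 ∧ ∀ g, dot g u = Real.sqrt (∑ i, u i ^ 2) * dot g v := by
  set s := ∑ i, u i ^ 2 with hs
  have h0 : 0 ≤ s := Finset.sum_nonneg fun i _ => sq_nonneg _
  rcases h0.eq_or_lt with h | h
  · left
    refine ⟨fun g => ?_, h.symm⟩
    have hz : ∀ i, u i = 0 := fun i => pow_eq_zero_iff two_ne_zero |>.1
      ((Finset.sum_eq_zero_iff_of_nonneg fun i _ => sq_nonneg (u i)).1 h.symm i (Finset.mem_univ i))
    simp [Vale.Agent.P157.dot, hz]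
  · right
    refine ⟨fun i => u i / Real.sqrt s, ?_, fun g => ?_⟩
    · simp only [div_pow, ← Finset.sum_div, Real.sq_sqrt h0, ← hs]
      exact div_self h.ne'
    · simp only [Vale.Agent.P157.dot, Finset.mul_sum]
      exact Finset.sum_congr rfl fun i _ => by
        have := (Real.sqrt_pos.2 h).ne'
        field_simp

lemma integrable_pow_abs (k : ℕ) (hk : k ≤ 9) :
    Integrable (fun z : ℝ => z ^ k) (gaussianReal 0 1) :=
  integrable_pow9.mono' (by fun_prop) (ae_of_all _ fun z => by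
    rw [Real.norm_eq_abs, abs_pow]
    exact (pow_le_pow_left₀ (abs_nonneg _) (le_add_of_nonneg_left zero_le_one) k).trans
      (pow_le_pow_right₀ (le_add_of_nonneg_right (abs_nonneg _)) hk))

lemma integrable_dot_pow (u : κ → ℝ) (k : ℕ) (hk : k ≤ 9) :
    Integrable (fun g => dot g u ^ k) (gam κ) := by
  rcases exists_unit u with ⟨h, -⟩ | ⟨v, hv, h⟩
  · simp only [h]; exact integrable_const _
  · simp only [h, mul_pow]
    exact (Vale.Agent.P157.Parisi.Cavity.integrable_dot_unit hv (integrable_pow_abs k hk)).const_mul _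

lemma integral_pow_four : ∫ z : ℝ, z ^ 4 ∂gaussianReal 0 1 = 3 := by
  have h := integral_sub_one_sq
  have e : ∀ z : ℝ, (z ^ 2 - 1) ^ 2 = z ^ 4 - 2 * z ^ 2 + 1 := fun z => by ring
  simp only [e] at h
  have h2 := Vale.Agent.P157.integral_sq_gam1
  rw [integral_add ((integrable_pow_abs 4 (by norm_num)).sub'
    ((integrable_pow_abs 2 (by norm_num)).const_mul 2)) (integrable_const _),
    integral_sub (integrable_pow_abs 4 (by norm_num))
      ((integrable_pow_abs 2 (by norm_num)).const_mul 2), integral_const_mul, h2] at h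
  simp only [integral_const, probReal_univ, one_smul] at h
  linarith

lemma integral_dot_four (u : κ → ℝ) : ∫ g, dot g u ^ 4 ∂gam κ = 3 * (∑ i, u i ^ 2) ^ 2 := by
  have h0 : 0 ≤ ∑ i, u i ^ 2 := Finset.sum_nonneg fun i _ => sq_nonneg _
  rcases exists_unit u with ⟨h, hs⟩ | ⟨v, hv, h⟩
  · simp [h, hs]
  · simp only [h, mul_pow]
    rw [integral_const_mul,
      Vale.Agent.P157.Parisi.Cavity.integral_dot_unit hv (φ := fun z => z ^ 4) (by fun_prop),
      integral_pow_four, show Real.sqrt (∑ i, u i ^ 2) ^ 4 = (Real.sqrt (∑ i, u i ^ 2) ^ 2) ^ 2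
        by ring, Real.sq_sqrt h0]
    ring

lemma integral_dot_prod (u v : κ → ℝ) : ∫ g, dot g u * dot g v ∂gam κ = ∑ i, u i * v i := by
  have e : ∀ g, dot g u * dot g v =
      (dot g (fun i => u i + v i) ^ 2 - dot g (fun i => u i - v i) ^ 2) / 4 := fun g => by
    rw [dot_add, dot_sub]; ring
  simp only [e]
  rw [integral_div, integral_sub (integrable_dot_pow _ 2 (by norm_num))
    (integrable_dot_pow _ 2 (by norm_num)), integral_dot_sq, integral_dot_sq,
    ← Finset.sum_sub_distrib, Finset.sum_div]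
  exact Finset.sum_congr rfl fun i _ => by ring

lemma integral_dot_sq_sq (u v : κ → ℝ) :
    Integrable (fun g => dot g u ^ 2 * dot g v ^ 2) (gam κ) ∧
      ∫ g, dot g u ^ 2 * dot g v ^ 2 ∂gam κ =
        (∑ i, u i ^ 2) * (∑ i, v i ^ 2) + 2 * (∑ i, u i * v i) ^ 2 := by
  have e : ∀ g, dot g u ^ 2 * dot g v ^ 2 = (dot g (fun i => u i + v i) ^ 4 +
      dot g (fun i => u i - v i) ^ 4 - (2 * dot g u ^ 4 + 2 * dot g v ^ 4)) / 12 := fun g => by
    rw [dot_add, dot_sub]; ring
  have i4 := fun w : κ → ℝ => integrable_dot_pow w 4 (by norm_num)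
  simp only [e]
  refine ⟨(((i4 _).add (i4 _)).sub (((i4 _).const_mul 2).add ((i4 _).const_mul 2))).div_const 12, ?_⟩
  rw [integral_div, integral_sub ((i4 _).fun_add (i4 _)) (((i4 _).const_mul 2).fun_add ((i4 _).const_mul 2)),
    integral_add (i4 _) (i4 _), integral_add ((i4 _).const_mul 2) ((i4 _).const_mul 2),
    integral_const_mul, integral_const_mul]
  simp only [integral_dot_four, add_sq, sub_sq, Finset.sum_add_distrib, Finset.sum_sub_distrib,
    mul_assoc, ← Finset.mul_sum]
  ring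

/-- The integral of `exp (x² / 4)`. -/
lemma integrable_exp_sq : Integrable (fun x : ℝ => Real.exp (x ^ 2 / 4)) (gaussianReal 0 1) := by
  rw [gaussianReal_of_var_ne_zero _ one_ne_zero,
    integrable_withDensity_iff (measurable_gaussianPDF _ _)
      (Eventually.of_forall fun _ => gaussianPDF_lt_top)]
  refine ((integrable_exp_neg_mul_sq (show (0 : ℝ) < 1 / 4 by norm_num)).const_mul
    ((Real.sqrt (2 * Real.pi))⁻¹)).congr (Eventually.of_forall fun x => ?_)
  simp only [toReal_gaussianPDF, gaussianPDFReal, NNReal.coe_one, mul_one, sub_zero]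
  rw [mul_left_comm, ← Real.exp_add]
  congr 2
  ring

/-! ### The two processes -/

variable {N : ℕ} {θ : ℝ}

/-- A centred square. -/
def sqProc (θ : ℝ) (g : Fin N → ℝ) (σ : Cube N) : ℝ := -(θ / 2) * (dot g (unitVec σ) ^ 2 - 1)

/-- The vector of a configuration on the pairs. -/
def pairVec (σ : Cube N) (e : Pair N) : ℝ := unitVec σ e.1.1 * unitVec σ e.1.2

/-- The Gaussian quadratic form. -/
def gProc (θ : ℝ) (h : Pair N → ℝ) (σ : Cube N) : ℝ := θ * dot h (pairVec σ)

lemma unitVec_sq (_hN : 0 < N) (σ : Cube N) (i : Fin N) : unitVec σ i ^ 2 = 1 / (N : ℝ) := by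
  rw [unitVec, div_pow, Real.sq_sqrt (Nat.cast_nonneg N)]
  congr 1
  unfold Vale.Agent.P157.Parisi.sv
  split_ifs <;> norm_num

lemma sum_pairVec_sq (hN : 0 < N) (σ : Cube N) : ∑ e, pairVec σ e ^ 2 ≤ 1 := by
  simp only [pairVec, mul_pow, unitVec_sq hN, Finset.sum_const, Finset.card_univ, nsmul_eq_mul]
  rw [div_mul_div_comm, one_mul, mul_one_div, div_le_one (by positivity)]
  have h := Fintype.card_subtype_le fun p : Fin N × Fin N => p.1 < p.2
  simp only [Fintype.card_prod, Fintype.card_fin] at h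
  exact_mod_cast h

lemma sum_pair (a : Fin N → ℝ) :
    ∑ e : Pair N, a e.1.1 * a e.1.2 = ((∑ i, a i) ^ 2 - ∑ i, a i ^ 2) / 2 := by
  have h1 : ∑ e : Pair N, a e.1.1 * a e.1.2 =
      ∑ i, ∑ j, if i < j then a i * a j else 0 := by
    rw [← Fintype.sum_prod_type' (f := fun i j => if i < j then a i * a j else 0),
      ← Finset.sum_filter]
    exact (Finset.sum_subtype (Finset.univ.filter fun p : Fin N × Fin N => p.1 < p.2)
      (fun p => by simp) fun p => a p.1 * a p.2).symm
  have h2 : (∑ i, a i) ^ 2 = ∑ i, ∑ j, ((if i < j then a i * a j else 0) +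
      (if j < i then a j * a i else 0) + if i = j then a i * a j else 0) := by
    rw [sq, Finset.sum_mul_sum]
    refine Finset.sum_congr rfl fun i _ => Finset.sum_congr rfl fun j _ => ?_
    rcases lt_trichotomy i j with h | h | h
    · simp [h, h.ne, h.not_gt]
    · simp [h]
    · simp [h, h.ne', h.not_gt, mul_comm]
  simp only [Finset.sum_add_distrib, Finset.sum_ite_eq, Finset.mem_univ, if_true] at h2
  rw [Finset.sum_comm (f := fun i j => if j < i then a j * a i else 0)] at h2
  rw [h1, h2]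
  simp only [sq]
  ring

/-- The constant of one step. -/
def stepConst : ℝ :=
  6 * (∫ x, (x ^ 2 + 1) ^ 3 * Real.exp ((x ^ 2 + 1) / 8) ∂gaussianReal 0 1) +
    6 * ∫ x, |x| ^ 3 * Real.exp |x| ∂gaussianReal 0 1

/-- One pattern costs as much as one Gaussian form, up to the third order. -/
theorem step_le (hN : 0 < N) (hθ : 0 ≤ θ) (hθ' : θ ≤ 1 / 8) {p : Cube N → ℝ} (hp : ∀ σ, 0 < p σ) :
    ∫ g, Real.log (∑ σ, p σ * Real.exp (sqProc θ g σ)) ∂gam (Fin N) ≤
      (∫ h, Real.log (∑ σ, p σ * Real.exp (gProc θ h σ)) ∂gam (Pair N)) + stepConst * θ ^ 3 := by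
  have hu := fun σ => Vale.Agent.P157.Parisi.Cavity.sum_unitVec_sq hN σ
  have mX : ∀ σ, Measurable fun g : Fin N → ℝ => sqProc θ g σ := fun σ =>
    (((measurable_dot' _).pow_const 2).sub_const 1).const_mul _
  have mY : ∀ σ, Measurable fun h : Pair N → ℝ => gProc θ h σ := fun σ =>
    (measurable_dot' _).const_mul _
  have i22 := fun σ τ => (integral_dot_sq_sq (κ := Fin N) (unitVec σ) (unitVec τ)).1
  have i2 := fun σ : Cube N => integrable_dot_pow (unitVec σ) 2 (by norm_num)
  -- second moments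
  have eX : ∀ σ τ, Integrable (fun g => sqProc θ g σ * sqProc θ g τ) (gam (Fin N)) ∧
      ∫ g, sqProc θ g σ * sqProc θ g τ ∂gam (Fin N) =
        θ ^ 2 / 2 * (∑ i, unitVec σ i * unitVec τ i) ^ 2 := fun σ τ => by
    have e : ∀ g, sqProc θ g σ * sqProc θ g τ = θ ^ 2 / 4 * (dot g (unitVec σ) ^ 2 *
        dot g (unitVec τ) ^ 2 - dot g (unitVec σ) ^ 2 - dot g (unitVec τ) ^ 2 + 1) := fun g => by
      simp only [sqProc]; ring
    simp only [e]
    refine ⟨(((((i22 σ τ).sub (i2 σ)).sub (i2 τ))).add (integrable_const 1)).const_mul _, ?_⟩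
    rw [integral_const_mul, integral_add (((i22 σ τ).sub' (i2 σ)).sub' (i2 τ)) (integrable_const _),
      integral_sub ((i22 σ τ).sub' (i2 σ)) (i2 τ), integral_sub (i22 σ τ) (i2 σ),
      (integral_dot_sq_sq _ _).2, integral_dot_sq, integral_dot_sq, hu, hu, integral_const,
      probReal_univ, one_smul]
    ring
  have eY : ∀ σ τ, ∫ h, gProc θ h σ * gProc θ h τ ∂gam (Pair N) =
      θ ^ 2 / 2 * ((∑ i, unitVec σ i * unitVec τ i) ^ 2 - 1 / (N : ℝ)) := fun σ τ => by
    have e : ∀ h, gProc θ h σ * gProc θ h τ = θ ^ 2 * (dot h (pairVec σ) * dot h (pairVec τ)) :=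
      fun h => by simp only [gProc]; ring
    simp only [e]
    rw [integral_const_mul, integral_dot_prod]
    have e2 : ∀ e : Pair N, pairVec σ e * pairVec τ e =
        (fun i => unitVec σ i * unitVec τ i) e.1.1 * (fun i => unitVec σ i * unitVec τ i) e.1.2 :=
      fun e => by simp only [pairVec]; ring
    simp only [e2, sum_pair (fun i => unitVec σ i * unitVec τ i), mul_pow, unitVec_sq hN,
      Finset.sum_const, Finset.card_univ, Fintype.card_fin, nsmul_eq_mul]
    have : (N : ℝ) ≠ 0 := by exact_mod_cast hN.ne'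
    field_simp
  -- cubes
  have hX3 : Integrable (fun x : ℝ => (x ^ 2 + 1) ^ 3 * Real.exp ((x ^ 2 + 1) / 8))
      (gaussianReal 0 1) := by
    refine (integrable_exp_sq.const_mul (6 * 512 * Real.exp (1 / 4))).mono' (by fun_prop)
      (ae_of_all _ fun x => ?_)
    have hy : 0 ≤ (x ^ 2 + 1) / 8 := by positivity
    have h := Real.pow_div_factorial_le_exp _ hy 3
    norm_num at h
    rw [Real.norm_eq_abs, abs_of_nonneg (by positivity)]
    calc (x ^ 2 + 1) ^ 3 * Real.exp ((x ^ 2 + 1) / 8) ≤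
          6 * 512 * Real.exp ((x ^ 2 + 1) / 8) * Real.exp ((x ^ 2 + 1) / 8) :=
        mul_le_mul_of_nonneg_right (by linarith) (Real.exp_pos _).le
      _ = _ := by rw [mul_assoc, ← Real.exp_add, mul_assoc (6 * 512), ← Real.exp_add]; ring_nf
  have hY3 : Integrable (fun x : ℝ => |x| ^ 3 * Real.exp |x|) (gaussianReal 0 1) := by
    refine ((integrable_exp_abs 2).const_mul 6).mono' (by fun_prop) (ae_of_all _ fun x => ?_)
    have h := Real.pow_div_factorial_le_exp _ (abs_nonneg x) 3
    norm_num at h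
    rw [Real.norm_eq_abs, abs_of_nonneg (by positivity)]
    calc |x| ^ 3 * Real.exp |x| ≤ 6 * Real.exp |x| * Real.exp |x| :=
        mul_le_mul_of_nonneg_right (by linarith) (Real.exp_pos _).le
      _ = _ := by rw [mul_assoc, ← Real.exp_add]; ring_nf
  set IX := ∫ x, (x ^ 2 + 1) ^ 3 * Real.exp ((x ^ 2 + 1) / 8) ∂gaussianReal 0 1
  set IY := ∫ x, |x| ^ 3 * Real.exp |x| ∂gaussianReal 0 1
  have bX : ∀ (σ : Cube N) (g : Fin N → ℝ), |sqProc θ g σ| ^ 3 * Real.exp (2 * |sqProc θ g σ|) ≤
      θ ^ 3 * ((dot g (unitVec σ) ^ 2 + 1) ^ 3 * Real.exp ((dot g (unitVec σ) ^ 2 + 1) / 8)) := by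
    intro σ g
    set y := dot g (unitVec σ) ^ 2 + 1
    have hy : 0 ≤ y := by positivity
    have h1 : |sqProc θ g σ| ≤ θ / 2 * y := by
      rw [sqProc, abs_mul, abs_neg, abs_of_nonneg (by linarith : 0 ≤ θ / 2)]
      refine mul_le_mul_of_nonneg_left (abs_le.2 ⟨?_, ?_⟩) (by linarith) <;>
        simp only [y] <;> nlinarith
    rw [← mul_assoc, ← mul_pow]
    refine mul_le_mul (pow_le_pow_left₀ (abs_nonneg _) (h1.trans ?_) 3) (Real.exp_le_exp.2 ?_)
      (Real.exp_pos _).le (by positivity)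
    · nlinarith
    · linarith [mul_le_mul_of_nonneg_right hθ' hy]
  have iX : ∀ σ, Integrable (fun g => |sqProc θ g σ| ^ 3 * Real.exp (2 * |sqProc θ g σ|))
      (gam (Fin N)) := fun σ =>
    ((Vale.Agent.P157.Parisi.Cavity.integrable_dot_unit (hu σ) hX3).const_mul (θ ^ 3)).mono'
      (by have := mX σ; fun_prop) (ae_of_all _ fun g => by
        rw [Real.norm_eq_abs, abs_of_nonneg (by positivity)]; exact bX σ g)
  have KX : ∀ σ, ∫ g, |sqProc θ g σ| ^ 3 * Real.exp (2 * |sqProc θ g σ|) ∂gam (Fin N) ≤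
      θ ^ 3 * IX := fun σ => by
    refine (integral_mono (iX σ)
      ((Vale.Agent.P157.Parisi.Cavity.integrable_dot_unit (hu σ) hX3).const_mul (θ ^ 3))
      (bX σ)).trans (le_of_eq ?_)
    rw [integral_const_mul, Vale.Agent.P157.Parisi.Cavity.integral_dot_unit (hu σ)
      (φ := fun x => (x ^ 2 + 1) ^ 3 * Real.exp ((x ^ 2 + 1) / 8)) (by fun_prop)]
  have hIY : 0 ≤ IY := integral_nonneg fun x => by positivity
  have hIX : 0 ≤ IX := integral_nonneg fun x => by positivity
  have hY : ∀ σ, Integrable (fun h => |gProc θ h σ| ^ 3 * Real.exp (2 * |gProc θ h σ|))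
      (gam (Pair N)) ∧
      ∫ h, |gProc θ h σ| ^ 3 * Real.exp (2 * |gProc θ h σ|) ∂gam (Pair N) ≤ θ ^ 3 * IY := by
    intro σ
    rcases exists_unit (pairVec σ) with ⟨h0, -⟩ | ⟨v, hv, hd⟩
    · simp only [gProc, h0, mul_zero, abs_zero, ne_eq, OfNat.ofNat_ne_zero, not_false_eq_true,
        zero_pow, zero_mul]
      exact ⟨integrable_const _, by simp; positivity⟩
    have hb : ∀ h, |gProc θ h σ| ^ 3 * Real.exp (2 * |gProc θ h σ|) ≤
        θ ^ 3 * (|dot h v| ^ 3 * Real.exp |dot h v|) := fun h => by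
      have h1 : |gProc θ h σ| ≤ θ * |dot h v| := by
        rw [gProc, hd, abs_mul, abs_mul, abs_of_nonneg hθ, abs_of_nonneg (Real.sqrt_nonneg _)]
        exact mul_le_mul_of_nonneg_left (mul_le_of_le_one_left (abs_nonneg _)
          (Real.sqrt_le_one.2 (sum_pairVec_sq hN σ))) hθ
      rw [← mul_assoc, ← mul_pow]
      refine mul_le_mul (pow_le_pow_left₀ (abs_nonneg _) h1 3) (Real.exp_le_exp.2 ?_)
        (Real.exp_pos _).le (by positivity)
      nlinarith [abs_nonneg (dot h v), mul_le_mul_of_nonneg_right hθ' (abs_nonneg (dot h v))]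
    have hi := (Vale.Agent.P157.Parisi.Cavity.integrable_dot_unit hv hY3).const_mul (θ ^ 3)
    have hi' : Integrable (fun h => |gProc θ h σ| ^ 3 * Real.exp (2 * |gProc θ h σ|))
        (gam (Pair N)) := hi.mono' (by have := mY σ; fun_prop) (ae_of_all _ fun h => by
      rw [Real.norm_eq_abs, abs_of_nonneg (by positivity)]; exact hb h)
    refine ⟨hi', (integral_mono hi' hi hb).trans (le_of_eq ?_)⟩
    rw [integral_const_mul, Vale.Agent.P157.Parisi.Cavity.integral_dot_unit hv
      (φ := fun x => |x| ^ 3 * Real.exp |x|) (by fun_prop)]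
  obtain ⟨-, hA⟩ := mean_lse mX hp (K := θ ^ 3 * IX)
    (fun σ => (memLp_two_iff_integrable_sq (mX σ).aestronglyMeasurable).2
      ((eX σ σ).1.congr (ae_of_all _ fun g => (sq _).symm)))
    (fun σ => by
      simp only [sqProc]
      rw [integral_const_mul, integral_sub (i2 σ) (integrable_const _), integral_dot_sq, hu]
      simp)
    (fun σ τ => (eX σ τ).2) iX KX
  obtain ⟨-, hB⟩ := mean_lse mY hp (K := θ ^ 3 * IY)
    (fun σ => (memLp_two_iff_integrable_sq (mY σ).aestronglyMeasurable).2 (by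
      simp only [gProc, mul_pow]
      exact (integrable_dot_pow _ 2 (by norm_num)).const_mul _))
    (fun σ => by simp only [gProc]; rw [integral_const_mul, integral_dot, mul_zero])
    eY (fun σ => (hY σ).1) fun σ => (hY σ).2
  have hV : wVar p (fun σ τ => θ ^ 2 / 2 * (∑ i, unitVec σ i * unitVec τ i) ^ 2) =
      wVar p fun σ τ => θ ^ 2 / 2 * ((∑ i, unitVec σ i * unitVec τ i) ^ 2 - 1 / (N : ℝ)) := by
    simp only [mul_sub]
    exact (wVar_sub_const hp _ _).symm
  rw [hV] at hA
  rw [abs_le] at hA hB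
  have : stepConst * θ ^ 3 = 6 * (θ ^ 3 * IX) + 6 * (θ ^ 3 * IY) := by
    simp only [stepConst]; ring
  linarith [hA.2, hB.1]

end Vale.Agent.P146.Div.Lower
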