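import Vale.Agent.P146.Div.Lower.Compare

/-!
Replacing many centred squares of Gaussian linear forms by one Gaussian quadratic form.
-/

noncomputable section

open MeasureTheory ProbabilityTheory
open scoped BigOperators

namespace Vale.Agent.P146.Div.Lower

open Vale.Agent.P157 (gam dot patterns)
open Vale.Agent.P157.Parisi (Cube unitVec)
open Vale.Agent.P157.Parisi.Cavity (integral_field_congr)
open Vale.Agent.P168.Limit.SelfAvg (field)

variable {N : ℕ} {θ : ℝ}

/-- The logarithm of a weighted sum of exponentials. -/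
def lse (p z : Cube N → ℝ) : ℝ := Real.log (∑ σ, p σ * Real.exp (z σ))

lemma measurable_lse (p : Cube N → ℝ) : Measurable (lse p) := by
  unfold lse; fun_prop

lemma lse_mul (p z w : Cube N → ℝ) :
    lse (fun σ => p σ * Real.exp (z σ)) w = lse p fun σ => z σ + w σ := by
  simp only [lse, Real.exp_add, mul_assoc]

lemma integrable_lse {Ω : Type*} [MeasurableSpace Ω] {μ : Measure Ω} [IsProbabilityMeasure μ]
    {p : Cube N → ℝ} (hp : ∀ σ, 0 < p σ) {W : Ω → Cube N → ℝ}
    (hm : ∀ σ, Measurable fun ω => W ω σ) (hi : ∀ σ, Integrable (fun ω => W ω σ) μ) :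
    Integrable (fun ω => lse p (W ω)) μ := by
  refine ((integrable_const |Real.log (∑ σ, p σ)|).add
    (integrable_finsetSum Finset.univ fun σ _ => (hi σ).abs)).mono'
    ((measurable_lse p).comp (measurable_pi_lambda _ hm)).aestronglyMeasurable
    (ae_of_all _ fun ω => ?_)
  simpa [lse] using abs_log_sum_exp (z := W ω) hp

lemma integrable_sqProc (θ : ℝ) (σ : Cube N) :
    Integrable (fun g => sqProc θ g σ) (gam (Fin N)) := by
  unfold sqProc
  exact ((integrable_dot_pow _ 2 (by norm_num)).sub (integrable_const 1)).const_mul _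

lemma integrable_gProc (θ : ℝ) (σ : Cube N) :
    Integrable (fun h => gProc θ h σ) (gam (Pair N)) := by
  have h := (integrable_dot_pow (pairVec σ) 1 (by norm_num)).const_mul θ
  simpa [gProc] using h

lemma measurable_sqProc (θ : ℝ) (σ : Cube N) : Measurable fun g : Fin N → ℝ => sqProc θ g σ :=
  (((measurable_dot' _).pow_const 2).sub_const 1).const_mul _

lemma measurable_gProc (θ : ℝ) (σ : Cube N) : Measurable fun h : Pair N → ℝ => gProc θ h σ :=
  (measurable_dot' _).const_mul _

/-- Two independent Gaussian forms add up to one. -/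
lemma lse_combine (θ a b : ℝ) (hb : b ^ 2 = a ^ 2 + 1) {p : Cube N → ℝ}
    (hp : ∀ σ, 0 < p σ) :
    ∫ h, ∫ h', lse p (fun σ => a * gProc θ h σ + gProc θ h' σ) ∂gam (Pair N) ∂gam (Pair N) =
      ∫ h, lse p (fun σ => b * gProc θ h σ) ∂gam (Pair N) := by
  set φ : Cube N → Pair N ⊕ Pair N → ℝ :=
    fun σ => Sum.elim (fun e => a * (θ * pairVec σ e)) fun e => θ * pairVec σ e
  set ψ : Cube N → Pair N → ℝ := fun σ e => b * (θ * pairVec σ e)
  have hcov : ∀ σ τ, ∑ i, φ σ i * φ τ i = ∑ k, ψ σ k * ψ τ k := fun σ τ => by
    simp only [φ, ψ, Fintype.sum_sum_type, Sum.elim_inl, Sum.elim_inr, ← Finset.sum_add_distrib]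
    refine Finset.sum_congr rfl fun e _ => ?_
    linear_combination (-(θ ^ 2 * pairVec σ e * pairVec τ e)) * hb
  have key := integral_field_congr φ ψ hcov (measurable_lse p)
  have hs := measurePreserving_sumPiEquivProdPi fun _ : Pair N ⊕ Pair N => gaussianReal 0 1
  have eR : ∀ z, field ψ z = fun σ => b * gProc θ z σ := fun z => funext fun σ => by
    simp only [field, ψ, gProc, Vale.Agent.P157.dot, Finset.mul_sum]
    exact Finset.sum_congr rfl fun e _ => by ring
  have eL : ∀ z, field φ z = fun σ =>
      a * gProc θ (fun e => z (.inl e)) σ + gProc θ (fun e => z (.inr e)) σ := fun z =>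
    funext fun σ => by
      simp only [field, φ, gProc, Vale.Agent.P157.dot, Finset.mul_sum, Fintype.sum_sum_type,
        Sum.elim_inl, Sum.elim_inr]
      exact congrArg₂ (· + ·) (Finset.sum_congr rfl fun e _ => by ring)
        (Finset.sum_congr rfl fun e _ => by ring)
  simp only [eR, eL] at key
  rw [← key]
  have hI : Integrable (fun z : (Pair N → ℝ) × (Pair N → ℝ) =>
      lse p fun σ => a * gProc θ z.1 σ + gProc θ z.2 σ) ((gam (Pair N)).prod (gam (Pair N))) := by
    refine integrable_lse hp (fun σ => ((measurable_gProc θ σ).comp measurable_fst).const_mul a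
      |>.add ((measurable_gProc θ σ).comp measurable_snd)) fun σ => ?_
    exact (((integrable_gProc θ σ).comp_fst _).const_mul a).add ((integrable_gProc θ σ).comp_snd _)
  rw [← integral_prod _ hI]
  exact (hs.integral_comp' (g := fun z : (Pair N → ℝ) × (Pair N → ℝ) =>
    lse p fun σ => a * gProc θ z.1 σ + gProc θ z.2 σ)).symm

/-- Many centred squares cost at most one Gaussian form, up to the third order. -/
theorem iterate_le (hN : 0 < N) (hθ : 0 ≤ θ) (hθ' : θ ≤ 1 / 8) :
    ∀ (M : ℕ) {p : Cube N → ℝ}, (∀ σ, 0 < p σ) →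
      ∫ g, lse p (fun σ => ∑ a, sqProc θ (g a) σ) ∂patterns M N ≤
        (∫ h, lse p (fun σ => Real.sqrt M * gProc θ h σ) ∂gam (Pair N)) +
          M * (stepConst * θ ^ 3) := by
  intro M
  induction M with
  | zero =>
    intro p _
    simp [Vale.Agent.P157.patterns]
  | succ M ih =>
    intro p hp
    have hsplit := measurePreserving_piFinSuccAbove (fun _ : Fin (M + 1) => gam (Fin N)) 0
    set ν := Measure.pi fun _ : Fin M => gam (Fin N)
    set G : (Fin N → ℝ) × (Fin M → Fin N → ℝ) → ℝ :=
      fun z => lse p fun σ => sqProc θ z.1 σ + ∑ a, sqProc θ (z.2 a) σ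
    set H : (Fin N → ℝ) × (Pair N → ℝ) → ℝ :=
      fun z => lse p fun σ => sqProc θ z.1 σ + Real.sqrt M * gProc θ z.2 σ
    set J : (Pair N → ℝ) × (Pair N → ℝ) → ℝ :=
      fun z => lse p fun σ => Real.sqrt M * gProc θ z.1 σ + gProc θ z.2 σ
    have hsum : ∀ σ : Cube N, Integrable (fun g : Fin M → Fin N → ℝ => ∑ a, sqProc θ (g a) σ) ν :=
      fun σ => integrable_finsetSum _ fun a _ =>
        (measurePreserving_eval (fun _ : Fin M => gam (Fin N)) a).integrable_comp_of_integrable
          (integrable_sqProc θ σ)
    have hGi : Integrable G ((gam (Fin N)).prod ν) :=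
      integrable_lse hp (fun σ => ((measurable_sqProc θ σ).comp measurable_fst).add
        (Finset.measurable_sum _ fun a _ => (measurable_sqProc θ σ).comp
          ((measurable_pi_apply a).comp measurable_snd)))
        fun σ => ((integrable_sqProc θ σ).comp_fst _).add ((hsum σ).comp_snd _)
    have hHi : Integrable H ((gam (Fin N)).prod (gam (Pair N))) :=
      integrable_lse hp (fun σ => ((measurable_sqProc θ σ).comp measurable_fst).add
        (((measurable_gProc θ σ).comp measurable_snd).const_mul _))
        fun σ => ((integrable_sqProc θ σ).comp_fst _).add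
          (((integrable_gProc θ σ).comp_snd _).const_mul _)
    have hJi : Integrable J ((gam (Pair N)).prod (gam (Pair N))) :=
      integrable_lse hp (fun σ => (((measurable_gProc θ σ).comp measurable_fst).const_mul _).add
        ((measurable_gProc θ σ).comp measurable_snd))
        fun σ => (((integrable_gProc θ σ).comp_fst _).const_mul _).add
          ((integrable_gProc θ σ).comp_snd _)
    have e0 : ∫ g, lse p (fun σ => ∑ a, sqProc θ (g a) σ) ∂patterns (M + 1) N =
        ∫ x, ∫ y, G (x, y) ∂ν ∂gam (Fin N) := by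
      rw [← integral_prod _ hGi, ← hsplit.integral_comp' (g := G)]
      refine integral_congr_ae (ae_of_all _ fun g => ?_)
      simp only [G, Fin.sum_univ_succ]
      rfl
    have s1 : ∫ x, ∫ y, G (x, y) ∂ν ∂gam (Fin N) ≤
        (∫ x, ∫ h, H (x, h) ∂gam (Pair N) ∂gam (Fin N)) + M * (stepConst * θ ^ 3) := by
      refine (integral_mono hGi.integral_prod_left
        (hHi.integral_prod_left.add (integrable_const (M * (stepConst * θ ^ 3)))) fun x => ?_).trans
          (le_of_eq ?_)
      · have h := ih (p := fun σ => p σ * Real.exp (sqProc θ x σ))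
          fun σ => mul_pos (hp σ) (Real.exp_pos _)
        simp only [lse_mul] at h
        exact h
      · rw [integral_add' hHi.integral_prod_left (integrable_const _), integral_const,
          probReal_univ, one_smul]
    have s2 : ∫ x, ∫ h, H (x, h) ∂gam (Pair N) ∂gam (Fin N) ≤
        (∫ h, ∫ h', J (h, h') ∂gam (Pair N) ∂gam (Pair N)) + stepConst * θ ^ 3 := by
      rw [integral_integral_swap (f := fun x h => H (x, h)) hHi]
      refine (integral_mono hHi.integral_prod_right
        (hJi.integral_prod_left.add (integrable_const (stepConst * θ ^ 3))) fun h => ?_).trans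
          (le_of_eq ?_)
      · have h1 := step_le hN hθ hθ' (p := fun σ => p σ * Real.exp (Real.sqrt M * gProc θ h σ))
          fun σ => mul_pos (hp σ) (Real.exp_pos _)
        simp only [← lse.eq_def, lse_mul] at h1
        simp only [H, J, Pi.add_apply, add_comm (sqProc θ _ _)]
        exact h1
      · rw [integral_add' hJi.integral_prod_left (integrable_const _), integral_const,
          probReal_univ, one_smul]
    have s3 := lse_combine θ (Real.sqrt M) (Real.sqrt ((M + 1 : ℕ) : ℝ))
      (by rw [Real.sq_sqrt (Nat.cast_nonneg _), Real.sq_sqrt (Nat.cast_nonneg _)]; push_cast; rfl) hp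
    rw [e0]
    simp only [J, s3] at s2
    have : ((M + 1 : ℕ) : ℝ) * (stepConst * θ ^ 3) =
        M * (stepConst * θ ^ 3) + stepConst * θ ^ 3 := by push_cast; ring
    linarith

end Vale.Agent.P146.Div.Lower
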