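import Vale.Agent.P146.Div.Defs

/-!
The second order expansion of the logarithm of a weighted sum of exponentials.
-/

noncomputable section

open Finset
open scoped BigOperators

namespace Vale.Agent.P146.Div.Lower

variable {ι : Type*} [Fintype ι] [Nonempty ι] (p z : ι → ℝ)

/-- The weighted exponential sums. -/
def expSum (k : ℕ) (t : ℝ) : ℝ := ∑ i, p i * z i ^ k * Real.exp (t * z i)

omit [Nonempty ι] in
lemma hasDerivAt_expSum (k : ℕ) (t : ℝ) :
    HasDerivAt (expSum p z k) (expSum p z (k + 1) t) t := by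
  refine (HasDerivAt.fun_sum fun i _ =>
    (((hasDerivAt_id t).mul_const (z i)).exp.const_mul (p i * z i ^ k))).congr_deriv ?_
  exact sum_congr rfl fun i _ => by simp only [id]; ring

omit [Nonempty ι] in
lemma two_le_three {r a : ι → ℝ} (hr : ∀ i, 0 ≤ r i) (ha : ∀ i, 0 ≤ a i) :
    (∑ i, r i * a i ^ 2) * (∑ i, r i * a i) ≤ (∑ i, r i * a i ^ 3) * ∑ i, r i := by
  have hnn : 0 ≤ ∑ i, ∑ j, r i * r j * ((a i - a j) ^ 2 * (a i + a j)) :=
    sum_nonneg fun i _ => sum_nonneg fun j _ =>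
      mul_nonneg (mul_nonneg (hr i) (hr j)) (mul_nonneg (sq_nonneg _) (add_nonneg (ha i) (ha j)))
  have e : ∀ i j, r i * r j * ((a i - a j) ^ 2 * (a i + a j)) =
      r i * a i ^ 3 * r j + r i * (r j * a j ^ 3) - r i * a i ^ 2 * (r j * a j) -
        r i * a i * (r j * a j ^ 2) := fun i j => by ring
  simp only [e, sum_add_distrib, sum_sub_distrib, ← mul_sum, ← sum_mul] at hnn
  linarith

omit [Nonempty ι] in
lemma sq_le_two {r a : ι → ℝ} (hr : ∀ i, 0 ≤ r i) :
    (∑ i, r i * a i) ^ 2 ≤ (∑ i, r i * a i ^ 2) * ∑ i, r i := by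
  have hnn : 0 ≤ ∑ i, ∑ j, r i * r j * (a i - a j) ^ 2 :=
    sum_nonneg fun i _ => sum_nonneg fun j _ =>
      mul_nonneg (mul_nonneg (hr i) (hr j)) (sq_nonneg _)
  have e : ∀ i j, r i * r j * (a i - a j) ^ 2 =
      r i * a i ^ 2 * r j + r i * (r j * a j ^ 2) - 2 * (r i * a i * (r j * a j)) :=
    fun i j => by ring
  simp only [e, sum_add_distrib, sum_sub_distrib, ← mul_sum, ← sum_mul] at hnn
  linarith

lemma pair_exp_le {a b : ℝ} (hb : 0 ≤ b) (hab : b ≤ a) :
    a ^ 3 * Real.exp a + b ^ 3 * Real.exp b ≤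
      a ^ 3 * Real.exp (2 * a - b) + b ^ 3 * Real.exp (2 * b - a) := by
  set d := a - b
  have e1 : Real.exp (2 * a - b) = Real.exp a * Real.exp d := by
    rw [← Real.exp_add]; congr 1; simp only [d]; ring
  have e2 : Real.exp (2 * b - a) = Real.exp b * Real.exp (-d) := by
    rw [← Real.exp_add]; congr 1; simp only [d]; ring
  have h1 : b ^ 3 * Real.exp b ≤ a ^ 3 * Real.exp a :=
    mul_le_mul (pow_le_pow_left₀ hb hab 3) (Real.exp_le_exp.2 hab) (Real.exp_pos _).le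
      (pow_nonneg (hb.trans hab) 3)
  have h2 : 1 ≤ Real.exp d := Real.one_le_exp (sub_nonneg.2 hab)
  have h3 : 1 - Real.exp (-d) ≤ Real.exp d - 1 := by
    have := Real.exp_add d (-d)
    rw [add_neg_cancel, Real.exp_zero] at this
    nlinarith [Real.exp_pos (-d), Real.exp_pos d, sq_nonneg (Real.exp d - 1)]
  have h4 : 0 ≤ b ^ 3 * Real.exp b := mul_nonneg (pow_nonneg hb 3) (Real.exp_pos _).le
  rw [e1, e2]
  nlinarith [mul_le_mul h1 (le_refl (Real.exp d - 1)) (by linarith) (h4.trans h1),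
    mul_le_mul_of_nonneg_left h3 h4]

/-- The cubic error functional. -/
def cubeErr : ℝ := (∑ i, p i * (|z i| ^ 3 * Real.exp (2 * |z i|))) / ∑ i, p i

variable {p} {z}

lemma cube_tilt_le (hp : ∀ i, 0 < p i) {t : ℝ} (ht : t ∈ Set.Icc (0 : ℝ) 1) :
    ∑ i, p i * Real.exp (t * z i) * |z i| ^ 3 ≤
      cubeErr p z * expSum p z 0 t := by
  set S := ∑ i, p i
  have hS : 0 < S := sum_pos (fun i _ => hp i) univ_nonempty
  have h1 : ∑ i, p i * Real.exp (t * z i) * |z i| ^ 3 ≤ ∑ i, p i * (|z i| ^ 3 * Real.exp |z i|) := by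
    refine sum_le_sum fun i _ => ?_
    rw [mul_assoc, mul_comm (Real.exp _)]
    refine mul_le_mul_of_nonneg_left (mul_le_mul_of_nonneg_left (Real.exp_le_exp.2 ?_)
      (by positivity)) (hp i).le
    have := mul_le_mul_of_nonneg_left (le_abs_self (z i)) ht.1
    linarith [mul_le_of_le_one_left (abs_nonneg (z i)) ht.2]
  have h2 : ∑ i, p i * Real.exp (-|z i|) ≤ expSum p z 0 t := by
    simp only [expSum, pow_zero, mul_one]
    refine sum_le_sum fun i _ => mul_le_mul_of_nonneg_left (Real.exp_le_exp.2 ?_) (hp i).le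
    have := mul_le_mul_of_nonneg_left (neg_abs_le (z i)) ht.1
    linarith [mul_le_of_le_one_left (abs_nonneg (z i)) ht.2]
  have h3 : (∑ i, p i * (|z i| ^ 3 * Real.exp |z i|)) * S ≤
      (∑ i, p i * (|z i| ^ 3 * Real.exp (2 * |z i|))) * ∑ i, p i * Real.exp (-|z i|) := by
    have hsym : ∀ f : ι → ι → ℝ, ∑ i, ∑ j, f i j = ∑ i, ∑ j, f j i := fun f => sum_comm
    have hnn : 0 ≤ ∑ i, ∑ j, p i * p j * (|z i| ^ 3 * Real.exp (2 * |z i|) * Real.exp (-|z j|) +
        |z j| ^ 3 * Real.exp (2 * |z j|) * Real.exp (-|z i|) -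
        |z i| ^ 3 * Real.exp |z i| - |z j| ^ 3 * Real.exp |z j|) := by
      refine sum_nonneg fun i _ => sum_nonneg fun j _ =>
        mul_nonneg (mul_nonneg (hp i).le (hp j).le) ?_
      simp only [mul_assoc, ← Real.exp_add, ← sub_eq_add_neg]
      rcases le_total |z j| |z i| with h | h
      · linarith [pair_exp_le (abs_nonneg (z j)) h]
      · linarith [pair_exp_le (abs_nonneg (z i)) h]
    have e : ∀ i j, p i * p j * (|z i| ^ 3 * Real.exp (2 * |z i|) * Real.exp (-|z j|) +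
        |z j| ^ 3 * Real.exp (2 * |z j|) * Real.exp (-|z i|) -
        |z i| ^ 3 * Real.exp |z i| - |z j| ^ 3 * Real.exp |z j|) =
        p i * (|z i| ^ 3 * Real.exp (2 * |z i|)) * (p j * Real.exp (-|z j|)) +
          p i * Real.exp (-|z i|) * (p j * (|z j| ^ 3 * Real.exp (2 * |z j|))) -
        p i * (|z i| ^ 3 * Real.exp |z i|) * p j -
          p i * (p j * (|z j| ^ 3 * Real.exp |z j|)) := fun i j => by ring
    simp only [e, sum_add_distrib, sum_sub_distrib, ← mul_sum, ← sum_mul] at hnn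
    linarith
  have hA : 0 ≤ cubeErr p z := div_nonneg (sum_nonneg fun i _ =>
    mul_nonneg (hp i).le (by positivity)) hS.le
  refine h1.trans (le_trans ?_ (mul_le_mul_of_nonneg_left h2 hA))
  rw [cubeErr, div_mul_eq_mul_div, le_div_iff₀ hS]
  exact h3

/-- The second order expansion. -/
theorem lse_expand (hp : ∀ i, 0 < p i) :
    |Real.log (∑ i, p i * Real.exp (z i)) - Real.log (∑ i, p i) - (∑ i, p i * z i) / (∑ i, p i) -
        ((∑ i, p i * z i ^ 2) / (∑ i, p i) - ((∑ i, p i * z i) / ∑ i, p i) ^ 2) / 2| ≤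
      6 * cubeErr p z := by
  have hpos : ∀ t, 0 < expSum p z 0 t := fun t =>
    sum_pos (fun i _ => by rw [pow_zero, mul_one]; exact mul_pos (hp i) (Real.exp_pos _)) univ_nonempty
  set φ := fun t => Real.log (expSum p z 0 t)
  set φ1 := fun t => expSum p z 1 t / expSum p z 0 t
  set φ2 := fun t => expSum p z 2 t / expSum p z 0 t - φ1 t ^ 2
  set φ3 := fun t => expSum p z 3 t / expSum p z 0 t -
    3 * (expSum p z 2 t / expSum p z 0 t) * φ1 t + 2 * φ1 t ^ 3
  set K := 6 * cubeErr p z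
  have d0 : ∀ t, HasDerivAt φ (φ1 t) t := fun t =>
    (hasDerivAt_expSum p z 0 t).log (hpos t).ne'
  have d1 : ∀ t, HasDerivAt φ1 (φ2 t) t := fun t => by
    refine ((hasDerivAt_expSum p z 1 t).div (hasDerivAt_expSum p z 0 t) (hpos t).ne').congr_deriv ?_
    have := (hpos t).ne'
    simp only [φ2, φ1]
    field_simp
  have d2 : ∀ t, HasDerivAt φ2 (φ3 t) t := fun t => by
    refine (((hasDerivAt_expSum p z 2 t).div (hasDerivAt_expSum p z 0 t) (hpos t).ne').sub
      ((d1 t).pow 2)).congr_deriv ?_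
    have := (hpos t).ne'
    simp only [φ3, φ2, φ1]
    norm_num
    field_simp
    ring
  have h3 : ∀ t ∈ Set.Icc (0 : ℝ) 1, |φ3 t| ≤ K := by
    intro t ht
    set r := fun i => p i * Real.exp (t * z i)
    set a := fun i => |z i|
    have hr : ∀ i, 0 ≤ r i := fun i => (mul_pos (hp i) (Real.exp_pos _)).le
    set Z := expSum p z 0 t
    have hZ : 0 < Z := hpos t
    set T3 := ∑ i, r i * a i ^ 3
    set T2 := ∑ i, r i * a i ^ 2
    set T1 := ∑ i, r i * a i
    have hrZ : ∑ i, r i = Z := sum_congr rfl fun i _ => by simp only [r, pow_zero, mul_one]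
    have b : ∀ k, |expSum p z k t| ≤ ∑ i, r i * a i ^ k := fun k =>
      (abs_sum_le_sum_abs _ _).trans (le_of_eq (sum_congr rfl fun i _ => by
        simp only [r, a]; rw [abs_mul, abs_mul, abs_pow, Real.abs_exp, abs_of_pos (hp i)]; ring))
    have b1 : |expSum p z 1 t| ≤ T1 := by simpa using b 1
    have hT1 : 0 ≤ T1 := sum_nonneg fun i _ => mul_nonneg (hr i) (abs_nonneg _)
    have hT2 : 0 ≤ T2 := sum_nonneg fun i _ => mul_nonneg (hr i) (sq_nonneg _)
    have h21 : T2 * T1 ≤ T3 * Z := hrZ ▸ two_le_three hr fun i => abs_nonneg (z i)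
    have h111 : T1 ^ 3 ≤ T3 * Z ^ 2 := by
      have h11 : T1 ^ 2 ≤ T2 * Z := hrZ ▸ sq_le_two hr
      nlinarith [mul_le_mul_of_nonneg_right h11 hT1, mul_le_mul_of_nonneg_left h21 hZ.le]
    have hT3 : T3 ≤ cubeErr p z * Z := by
      exact cube_tilt_le hp ht
    have k1 : |expSum p z 3 t / Z| ≤ cubeErr p z := by
      rw [abs_div, abs_of_pos hZ, div_le_iff₀ hZ]
      exact (b 3).trans hT3
    have k2 : |expSum p z 2 t / Z * φ1 t| ≤ cubeErr p z := by
      simp only [φ1]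
      rw [div_mul_div_comm, abs_div, abs_of_pos (mul_pos hZ hZ), div_le_iff₀ (mul_pos hZ hZ),
        abs_mul]
      refine (mul_le_mul (b 2) b1 (abs_nonneg _) hT2).trans (h21.trans ?_)
      rw [← mul_assoc]
      exact mul_le_mul_of_nonneg_right hT3 hZ.le
    have k3 : |φ1 t ^ 3| ≤ cubeErr p z := by
      simp only [φ1]
      rw [abs_pow, abs_div, abs_of_pos hZ, div_pow, div_le_iff₀ (pow_pos hZ 3)]
      refine (pow_le_pow_left₀ (abs_nonneg _) b1 3).trans (h111.trans ?_)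
      refine (mul_le_mul_of_nonneg_right hT3 (sq_nonneg Z)).trans (le_of_eq ?_)
      ring
    simp only [φ3, K]
    rw [abs_le] at k1 k2 k3 ⊢
    constructor <;> linarith
  have hmvt : ∀ (f f' : ℝ → ℝ), (∀ t, HasDerivAt f (f' t) t) → ∀ C : ℝ,
      (∀ t ∈ Set.Icc (0 : ℝ) 1, |f' t| ≤ C) → ∀ x ∈ Set.Icc (0 : ℝ) 1, |f x - f 0| ≤ C := by
    intro f f' hf C hC x hx
    have h := (convex_Icc (0 : ℝ) 1).norm_image_sub_le_of_norm_hasDerivWithin_le
      (fun t _ => (hf t).hasDerivWithinAt) (fun t ht => by rw [Real.norm_eq_abs]; exact hC t ht)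
      (Set.left_mem_Icc.2 zero_le_one) hx
    simp only [Real.norm_eq_abs, sub_zero] at h
    refine h.trans (mul_le_of_le_one_right ((abs_nonneg _).trans (hC x hx)) ?_)
    rw [abs_of_nonneg hx.1]; exact hx.2
  have s2 := hmvt φ2 φ3 d2 K h3
  have s1 : ∀ x ∈ Set.Icc (0 : ℝ) 1, |φ1 x - φ2 0 * x - (φ1 0 - φ2 0 * 0)| ≤ K :=
    hmvt (fun t => φ1 t - φ2 0 * t) (fun t => φ2 t - φ2 0)
      (fun t => ((d1 t).sub ((hasDerivAt_id t).const_mul (φ2 0))).congr_deriv (by ring)) K s2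
  have s0 : ∀ x ∈ Set.Icc (0 : ℝ) 1, |(φ x - φ1 0 * x - φ2 0 * x ^ 2 / 2) -
      (φ 0 - φ1 0 * 0 - φ2 0 * (0 : ℝ) ^ 2 / 2)| ≤ K :=
    hmvt (fun t => φ t - φ1 0 * t - φ2 0 * t ^ 2 / 2) (fun t => φ1 t - φ2 0 * t - φ1 0)
      (fun t => by
        refine (((d0 t).sub ((hasDerivAt_id t).const_mul (φ1 0))).sub
          (((hasDerivAt_pow 2 t).const_mul (φ2 0)).div_const 2)).congr_deriv ?_
        norm_num
        ring)
      K (fun t ht => by simpa [mul_zero, sub_zero] using s1 t ht)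
  have h := s0 1 (Set.right_mem_Icc.2 zero_le_one)
  have e : |φ 1 - φ 0 - φ1 0 - φ2 0 / 2| ≤ K := by
    refine le_trans (le_of_eq ?_) h
    congr 1; ring
  simpa [φ, φ1, φ2, expSum] using e

end Vale.Agent.P146.Div.Lower
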